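import Mathlib

namespace Vale.Agent.P040.Sph33

open Finset

variable {I : Type} [DecidableEq I]

/-- Level just below `u` of the signed walk given by keys `s` and signs `β`. -/
noncomputable def cnt (s : I → ℝ) (β : I → Prop) [DecidablePred β] (S : Finset I) (u : I) : ℕ :=
  (S.filter fun v => β v ∧ s v < s u).card + (S.filter fun v => ¬ β v ∧ s u < s v).card

theorem cnt_insert_pos (s : I → ℝ) (β : I → Prop) [DecidablePred β] (S : Finset I) (m u : I)
    (hb : β m) (hu : s u ≤ s m) : cnt s β (insert m S) u = cnt s β S u := by
  unfold cnt
  rw [Finset.filter_insert, Finset.filter_insert, if_neg, if_neg]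
  · exact fun h => h.1 hb
  · exact fun h => absurd h.2 (not_lt.mpr hu)

theorem cnt_insert_neg (s : I → ℝ) (β : I → Prop) [DecidablePred β] (S : Finset I) (m u : I)
    (hm : m ∉ S) (hb : ¬ β m) (hu : s u < s m) : cnt s β (insert m S) u = cnt s β S u + 1 := by
  unfold cnt
  rw [Finset.filter_insert, Finset.filter_insert, if_neg, if_pos ⟨hb, hu⟩,
    Finset.card_insert_of_notMem]
  · ring
  · exact fun h => hm (Finset.mem_filter.mp h).1
  · exact fun h => hb h.1

theorem cnt_insert_self (s : I → ℝ) (β : I → Prop) [DecidablePred β] (S : Finset I) (m : I)
    (hS : ∀ v ∈ S, s v < s m) : cnt s β (insert m S) m = (S.filter fun v => β v).card := by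
  unfold cnt
  rw [Finset.filter_insert, Finset.filter_insert, if_neg, if_neg]
  · have h1 : (S.filter fun v => β v ∧ s v < s m) = S.filter fun v => β v := by
      apply Finset.filter_congr
      intro v hv
      exact ⟨fun h => h.1, fun h => ⟨h, hS v hv⟩⟩
    have h2 : (S.filter fun v => ¬ β v ∧ s m < s v) = ∅ := by
      apply Finset.filter_eq_empty_iff.mpr
      intro v hv h
      exact absurd h.2 (not_lt.mpr (hS v hv).le)
    rw [h1, h2, Finset.card_empty, add_zero]
  · exact fun h => absurd h.2 (lt_irrefl _)
  · exact fun h => absurd h.2 (lt_irrefl _)

/-- Parity of the number of threshold passages of the signed walk (no sorting needed). -/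
theorem walk_parity (s : I → ℝ) (hs : Function.Injective s) (β : I → Prop) [DecidablePred β]
    (S : Finset I) : ∀ a k : ℕ,
    ((S.filter fun u => cnt s β S u + a = k).card
      + (if (S.filter fun v => ¬ β v).card + a ≤ k then 1 else 0)
      + (if (S.filter fun v => β v).card + a ≤ k then 1 else 0)) % 2 = 0 := by
  induction S using Finset.induction_on_max_value s with
  | empty =>
    intro a k
    simp only [Finset.filter_empty, Finset.card_empty]
    split_ifs <;> omega
  | insert m S hm hle ih =>
    intro a k
    have hlt : ∀ v ∈ S, s v < s m := by
      intro v hv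
      refine lt_of_le_of_ne (hle v hv) fun h => ?_
      exact hm (hs h ▸ hv)
    have hself := cnt_insert_self s β S m hlt
    by_cases hb : β m
    · have h1 : (S.filter fun u => cnt s β (insert m S) u + a = k)
          = S.filter fun u => cnt s β S u + a = k := by
        apply Finset.filter_congr
        intro u hu
        rw [cnt_insert_pos s β S m u hb (hle u hu)]
      have h2 : ((insert m S).filter fun v => ¬ β v) = S.filter fun v => ¬ β v := by
        rw [Finset.filter_insert, if_neg (fun h => h hb)]
      have h3 : ((insert m S).filter fun v => β v).card = (S.filter fun v => β v).card + 1 := by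
        rw [Finset.filter_insert, if_pos hb, Finset.card_insert_of_notMem]
        exact fun h => hm (Finset.mem_filter.mp h).1
      have h4 := ih a k
      rw [Finset.filter_insert, h1, h2, h3, hself]
      by_cases h5 : (S.filter fun v => β v).card + a = k
      · rw [if_pos h5, Finset.card_insert_of_notMem
          (fun h => hm (Finset.mem_filter.mp h).1)]
        revert h4
        split_ifs <;> omega
      · rw [if_neg h5]
        revert h4
        split_ifs <;> omega
    · have h1 : (S.filter fun u => cnt s β (insert m S) u + a = k)
          = S.filter fun u => cnt s β S u + (a + 1) = k := by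
        apply Finset.filter_congr
        intro u hu
        rw [cnt_insert_neg s β S m u hm hb (hlt u hu)]
        omega
      have h2 : ((insert m S).filter fun v => β v) = S.filter fun v => β v := by
        rw [Finset.filter_insert, if_neg hb]
      have h3 : ((insert m S).filter fun v => ¬ β v).card
          = (S.filter fun v => ¬ β v).card + 1 := by
        rw [Finset.filter_insert, if_pos hb, Finset.card_insert_of_notMem]
        exact fun h => hm (Finset.mem_filter.mp h).1
      have h4 := ih (a + 1) k
      rw [Finset.filter_insert, h1, h2, h3, hself]
      by_cases h5 : (S.filter fun v => β v).card + a = k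
      · rw [if_pos h5, Finset.card_insert_of_notMem
          (fun h => hm (Finset.mem_filter.mp h).1)]
        revert h4
        split_ifs <;> omega
      · rw [if_neg h5]
        revert h4
        split_ifs <;> omega

/-- The signed walk with `2k+1` steps passes the threshold `k | k+1` an odd number of times. -/
theorem odd_halving_walk [Fintype I] (k : ℕ) (hc : Fintype.card I = 2 * k + 1) (s : I → ℝ)
    (hs : Function.Injective s) (β : I → Prop) [DecidablePred β] :
    Odd (univ.filter fun u => cnt s β univ u = k).card := by
  have h := walk_parity s hs β univ 0 k
  have h2 := Finset.card_filter_add_card_filter_not (s := (univ : Finset I)) (fun v => β v)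
  rw [Finset.card_univ, hc] at h2
  simp only [add_zero] at h
  rw [Nat.odd_iff]
  revert h
  split_ifs <;> omega

/-- Complementary count. -/
theorem cnt_compl [Fintype I] (k : ℕ) (hc : Fintype.card I = 2 * k + 1) (s : I → ℝ)
    (hs : Function.Injective s) (β : I → Prop) [DecidablePred β] (u : I) :
    cnt s β univ u + cnt s (fun v => ¬ β v) univ u = 2 * k := by
  unfold cnt
  beta_reduce
  have h1 : (univ.filter fun v => β v ∧ s v < s u).card
      + (univ.filter fun v => ¬ β v ∧ s v < s u).card = (univ.filter fun v => s v < s u).card := by
    rw [← Finset.card_filter_add_card_filter_not (s := univ.filter fun v => s v < s u)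
      (fun v => β v), Finset.filter_filter, Finset.filter_filter]
    congr 2 <;> · ext v; simp [and_comm]
  have h2 : (univ.filter fun v => ¬ β v ∧ s u < s v).card
      + (univ.filter fun v => ¬ ¬ β v ∧ s u < s v).card = (univ.filter fun v => s u < s v).card := by
    rw [← Finset.card_filter_add_card_filter_not (s := univ.filter fun v => s u < s v)
      (fun v => ¬ β v), Finset.filter_filter, Finset.filter_filter]
    congr 2 <;> · ext v; simp [and_comm]
  have h3 : (univ.filter fun v => s v < s u).card + (univ.filter fun v => s u < s v).card
      = 2 * k := by
    have h4 : (univ.filter fun v => s v < s u) ∪ (univ.filter fun v => s u < s v)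
        = univ.erase u := by
      ext v
      simp only [Finset.mem_union, Finset.mem_filter, Finset.mem_univ, true_and,
        Finset.mem_erase, and_true]
      constructor
      · rintro (h | h) e
        · rw [e] at h; exact lt_irrefl _ h
        · rw [e] at h; exact lt_irrefl _ h
      · intro h
        exact lt_or_gt_of_ne fun e => h (hs e)
    have h5 : Disjoint (univ.filter fun v => s v < s u) (univ.filter fun v => s u < s v) := by
      rw [Finset.disjoint_filter]
      intro v _ h6 h7
      exact lt_asymm h6 h7
    rw [← Finset.card_union_of_disjoint h5, h4, Finset.card_erase_of_mem (Finset.mem_univ u),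
      Finset.card_univ, hc]
    omega
  omega

theorem card_or_eq_cnt [Fintype I] (s : I → ℝ) (β : I → Prop) [DecidablePred β] (u : I) :
    (univ.filter fun v => (β v ∧ s v < s u) ∨ (¬ β v ∧ s u < s v)).card = cnt s β univ u := by
  unfold cnt
  rw [Finset.filter_or, Finset.card_union_of_disjoint]
  rw [Finset.disjoint_filter]
  intro v _ h1 h2
  exact h2.1 h1.1

/-- Planar form with all second coordinates nonzero. -/
theorem odd_halving_planar_aux [Fintype I] (k : ℕ) (hc : Fintype.card I = 2 * k + 1)
    (x y : I → ℝ) (hy : ∀ v, y v ≠ 0)
    (hgen : ∀ u v, u ≠ v → x u * y v - x v * y u ≠ 0) :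
    Odd (univ.filter fun u => (univ.filter fun v => 0 < x u * y v - x v * y u).card = k).card := by
  have hs : Function.Injective fun v => x v / y v := by
    intro u v h
    by_contra hne
    apply hgen u v hne
    have h' : x u / y u = x v / y v := h
    rw [div_eq_div_iff (hy u) (hy v)] at h'
    linarith
  have hD : ∀ u v, x u * y v - x v * y u = y u * y v * (x u / y u - x v / y v) := by
    intro u v
    have h1 := hy u
    have h2 := hy v
    field_simp
  have key : ∀ u, ((univ.filter fun v => 0 < x u * y v - x v * y u).card = k) ↔
      cnt (fun v => x v / y v) (fun v => 0 < y v) univ u = k := by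
    intro u
    rcases lt_or_gt_of_ne (hy u) with hu | hu
    · have h1 : (univ.filter fun v => 0 < x u * y v - x v * y u)
          = univ.filter fun v => (¬ 0 < y v ∧ x v / y v < x u / y u) ∨
            (¬ ¬ 0 < y v ∧ x u / y u < x v / y v) := by
        apply Finset.filter_congr
        intro v _
        rw [hD u v]
        rcases lt_or_gt_of_ne (hy v) with hv | hv
        · have h3 : 0 < y u * y v := mul_pos_of_neg_of_neg hu hv
          rw [mul_pos_iff_of_pos_left h3, sub_pos]
          constructor
          · intro h; exact Or.inl ⟨not_lt.mpr hv.le, h⟩
          · rintro (h | h)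
            · exact h.2
            · exact absurd hv.le (not_le.mpr (not_not.mp h.1))
        · have h3 : y u * y v < 0 := mul_neg_of_neg_of_pos hu hv
          constructor
          · intro h
            refine Or.inr ⟨not_not.mpr hv, ?_⟩
            by_contra h4
            have h5 : 0 ≤ x u / y u - x v / y v := by linarith [not_lt.mp h4]
            nlinarith [mul_nonneg h5 (neg_pos.mpr h3).le]
          · rintro (h | h)
            · exact absurd hv h.1
            · have h5 : x u / y u - x v / y v < 0 := by linarith [h.2]
              exact mul_pos_of_neg_of_neg h3 h5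
      have h2 := card_or_eq_cnt (fun v => x v / y v) (fun v => ¬ 0 < y v) u
      have h3 := cnt_compl k hc (fun v => x v / y v) hs (fun v => 0 < y v) u
      rw [h1]
      beta_reduce at h2
      rw [h2]
      omega
    · have h1 : (univ.filter fun v => 0 < x u * y v - x v * y u)
          = univ.filter fun v => (0 < y v ∧ x v / y v < x u / y u) ∨
            (¬ 0 < y v ∧ x u / y u < x v / y v) := by
        apply Finset.filter_congr
        intro v _
        rw [hD u v]
        rcases lt_or_gt_of_ne (hy v) with hv | hv
        · have h3 : y u * y v < 0 := mul_neg_of_pos_of_neg hu hv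
          constructor
          · intro h
            refine Or.inr ⟨not_lt.mpr hv.le, ?_⟩
            by_contra h4
            have h5 : 0 ≤ x u / y u - x v / y v := by linarith [not_lt.mp h4]
            nlinarith [mul_nonneg h5 (neg_pos.mpr h3).le]
          · rintro (h | h)
            · exact absurd h.1 (not_lt.mpr hv.le)
            · have h5 : x u / y u - x v / y v < 0 := by linarith [h.2]
              exact mul_pos_of_neg_of_neg h3 h5
        · have h3 : 0 < y u * y v := mul_pos hu hv
          rw [mul_pos_iff_of_pos_left h3, sub_pos]
          constructor
          · intro h; exact Or.inl ⟨hv, h⟩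
          · rintro (h | h)
            · exact h.2
            · exact absurd hv h.1
      have h2 := card_or_eq_cnt (fun v => x v / y v) (fun v => 0 < y v) u
      rw [h1]
      beta_reduce at h2
      rw [h2]
  have h := odd_halving_walk k hc (fun v => x v / y v) hs (fun v => 0 < y v)
  have e : (univ.filter fun u => (univ.filter fun v => 0 < x u * y v - x v * y u).card = k)
      = univ.filter fun u => cnt (fun v => x v / y v) (fun v => 0 < y v) univ u = k := by
    apply Finset.filter_congr
    intro u _
    exact key u
  rw [e]
  exact h

/-- ODD COUNT ON A PENCIL, planar form: among `2k+1` pairwise independent planar vectors the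
number of `u` with exactly `k` vectors on the positive side of the line of `u` is odd. -/
theorem odd_halving_planar [Fintype I] (k : ℕ) (hc : Fintype.card I = 2 * k + 1)
    (x y : I → ℝ) (hgen : ∀ u v, u ≠ v → x u * y v - x v * y u ≠ 0) :
    Odd (univ.filter fun u => (univ.filter fun v => 0 < x u * y v - x v * y u).card = k).card := by
  rcases Nat.eq_zero_or_pos k with hk | hk
  · subst hk
    obtain ⟨a, ha⟩ := Fintype.card_eq_one_iff.mp (by simpa using hc)
    have e : (univ.filter fun u => (univ.filter fun v => 0 < x u * y v - x v * y u).card = 0)
        = univ := by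
      apply Finset.filter_true_of_mem
      intro u _
      rw [Finset.card_eq_zero, Finset.filter_eq_empty_iff]
      intro v _
      rw [ha u, ha v]
      simp
    rw [e, Finset.card_univ, hc]
    exact ⟨0, by ring⟩
  · have hne : ∀ v, x v ≠ 0 ∨ y v ≠ 0 := by
      intro v
      obtain ⟨u, hu⟩ := Fintype.exists_ne_of_one_lt_card (by omega : 1 < Fintype.card I) v
      by_contra h
      rw [not_or, not_not, not_not] at h
      apply hgen u v hu
      rw [h.1, h.2]
      ring
    obtain ⟨t, ht⟩ := Infinite.exists_notMem_finset (univ.image fun v => - y v / x v)
    have hy : ∀ v, y v + t * x v ≠ 0 := by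
      intro v h
      by_cases hx : x v = 0
      · rcases hne v with h1 | h1
        · exact h1 hx
        · apply h1
          rw [hx] at h
          linarith
      · apply ht
        rw [Finset.mem_image]
        refine ⟨v, Finset.mem_univ v, ?_⟩
        field_simp
        linarith
    have hD : ∀ u v, x u * (y v + t * x v) - x v * (y u + t * x u) = x u * y v - x v * y u := by
      intro u v
      ring
    have h := odd_halving_planar_aux k hc x (fun v => y v + t * x v) hy (by
      intro u v huv
      rw [hD]
      exact hgen u v huv)
    simpa only [hD] using h

end Vale.Agent.P040.Sph33
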